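import Mathlib

/-!
# P228, strengthening: exact statements of the blocks (helper951)

Goal (Results/P228/NoSmallSubgroups): every locally compact group acting faithfully and continuously on a
connected `n`-manifold has no small subgroups; compact ones embed in a unitary group `U(N)`.
-/

namespace Vale.Agent.P228.H951

/-- block PRO: a nontrivial profinite abelian group receives a nontrivial hom from some `ℤ_[p]` -/
def ProStatement.{u} : Prop := ∀ (A : Type u) [AddCommGroup A] [TopologicalSpace A]
  [IsTopologicalAddGroup A] [CompactSpace A] [T2Space A] [TotallyDisconnectedSpace A]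
  [Nontrivial A], ∃ (p : ℕ) (_ : Fact p.Prime) (φ : ℤ_[p] →+ A), Continuous φ ∧ φ ≠ 0

/-- block PW: Peter-Weyl, compact groups have enough finite dimensional unitary representations -/
def PWStatement.{u} : Prop := ∀ (K : Type u) [Group K] [TopologicalSpace K]
  [IsTopologicalGroup K] [CompactSpace K] [T2Space K] (g : K), g ≠ 1 →
  ∃ (N : ℕ) (φ : K →* Matrix.unitaryGroup (Fin N) ℂ), Continuous φ ∧ φ g ≠ 1

/-- block CH: compact abelian groups have enough characters (from `PWStatement`) -/
def CharStatement.{u} : Prop := ∀ (A : Type u) [AddCommGroup A] [TopologicalSpace A]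
  [IsTopologicalAddGroup A] [CompactSpace A] [T2Space A] (a : A), a ≠ 0 →
  ∃ χ : Multiplicative A →* Circle, Continuous χ ∧ χ (Multiplicative.ofAdd a) ≠ 1

/-- block CPT: every nontrivial compact group receives a nontrivial hom from some `ℤ_[p]` -/
def CptStatement.{u} : Prop := ∀ (K : Type u) [Group K] [TopologicalSpace K]
  [IsTopologicalGroup K] [CompactSpace K] [T2Space K] [Nontrivial K],
  ∃ (p : ℕ) (_ : Fact p.Prime) (φ : Multiplicative ℤ_[p] →* K), Continuous φ ∧ ∃ u, φ u ≠ 1

end Vale.Agent.P228.H951
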