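import Vale.Agent.P228.H951.Emb
import Vale.Agent.P228.H615.Compact

/-!
# P228: the final theorem from `PWStatement` and `CptStrong`
-/

set_option autoImplicit false

namespace Vale.Agent.P228.H951

open Set Topology Metric

universe u v

section

variable (hPW : PWStatement.{v})
  (hC : ∀ (K : Type v) [Group K] [TopologicalSpace K] [IsTopologicalGroup K] [CompactSpace K]
    [T2Space K], H615.CptStrong K)

include hC in
/-- every compact subgroup of a Hausdorff group satisfies `CptStrong` -/
theorem cptStrong_sub (G : Type v) [Group G] [TopologicalSpace G] [IsTopologicalGroup G]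
    [T2Space G] (K : Subgroup G) (hK : IsCompact (K : Set G)) : H615.CptStrong K := by
  have : CompactSpace K := isCompact_iff_compactSpace.1 hK
  exact hC K

include hPW hC in
theorem final (n : ℕ) (M : Type u) [TopologicalSpace M] [T2Space M] [PreconnectedSpace M]
    [ChartedSpace (EuclideanSpace ℝ (Fin n)) M] (G : Type v) [Group G] [TopologicalSpace G]
    [IsTopologicalGroup G] [MulAction G M] [ContinuousSMul G M] [FaithfulSMul G M] :
    (∃ U ∈ 𝓝 (1 : G), ∀ K : Subgroup G, IsCompact (K : Set G) → (K : Set G) ⊆ U → K = ⊥) ∧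
    (LocallyCompactSpace G →
      ∃ U ∈ 𝓝 (1 : G), ∀ H : Subgroup G, (H : Set G) ⊆ U → H = ⊥) ∧
    (LocallyCompactSpace G → TotallyDisconnectedSpace G → DiscreteTopology G) ∧
    (CompactSpace G → ∃ (N : ℕ) (φ : G →* Matrix.unitaryGroup (Fin N) ℂ),
      Topology.IsClosedEmbedding φ) := by
  have : T2Space G := H615.t2_of_faithful (M := M) G
  refine ⟨H615.no_small_compact (M := M) n G fun K hK => cptStrong_sub hC G K hK,
    fun _ => H615.nss (M := M) n G fun K hK => cptStrong_sub hC G K hK,
    fun _ _ => H615.discrete_of_faithful (M := M) n G, fun _ => ?_⟩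
  exact exists_closedEmbedding hPW G
    (H615.nss (M := M) n G fun K hK => cptStrong_sub hC G K hK)

include hC in
theorem final_local (n : ℕ) : ∃ c > (0 : ℝ), ∀ (K : Type v) [Group K] [TopologicalSpace K]
    [IsTopologicalGroup K] [CompactSpace K] [T2Space K]
    (W : Set (EuclideanSpace ℝ (Fin n))) [MulAction K W] [ContinuousSMul K W], IsOpen W →
    ∀ hW : closedBall (0 : EuclideanSpace ℝ (Fin n)) 1 ⊆ W,
    (∀ (k : K) (x : W), ‖(x : EuclideanSpace ℝ (Fin n))‖ ≤ 1 →
      ‖((k • x : W) : EuclideanSpace ℝ (Fin n)) - x‖ ≤ c) →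
    ∀ k : K, k • (⟨0, hW (mem_closedBall_self zero_le_one)⟩ : W) =
      ⟨0, hW (mem_closedBall_self zero_le_one)⟩ := by
  obtain ⟨c, hc, H⟩ := H615.local_compact.{v} n
  exact ⟨c, hc, fun K _ _ _ _ _ W _ _ => H K (hC K) W⟩

end

end Vale.Agent.P228.H951
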