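import Vale.Agent.P228.H951.Spec
import Vale.Agent.P228.H817.PWa
import Vale.Agent.P228.H773.PWb

/-!
# P228: the Peter-Weyl theorem (assembly of the blocks PW-a and PW-b)
-/

namespace Vale.Agent.P228.H951

universe u

/-- **Peter-Weyl**: compact groups have enough finite dimensional unitary representations -/
theorem pw : PWStatement.{u} := by
  intro K _ _ _ _ _ g hg
  obtain ⟨E, hE, hinv, f, hf, hne⟩ := H817.exists_invariant_subspace g hg
  refine H773.exists_rep' g ⟨E, hE, fun a f hf => ⟨H817.ltr a f, hinv a f hf, fun x => rfl⟩, f, hf, ?_⟩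
  by_contra h
  push Not at h
  exact hne (ContinuousMap.ext h)

end Vale.Agent.P228.H951
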