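import Vale.Agent.P228.H951.Spec

/-!
# P228, block EMB: compact groups without small subgroups embed in a unitary group
-/

namespace Vale.Agent.P228.H951

open Set Topology Matrix

universe v

/-- direct sum of two unitary matrices -/
noncomputable def dsum {a b : ℕ} (A : Matrix (Fin a) (Fin a) ℂ) (B : Matrix (Fin b) (Fin b) ℂ) :
    Matrix (Fin (a + b)) (Fin (a + b)) ℂ :=
  Matrix.reindex finSumFinEquiv finSumFinEquiv (Matrix.fromBlocks A 0 0 B)

theorem dsum_mul {a b : ℕ} (A A' : Matrix (Fin a) (Fin a) ℂ) (B B' : Matrix (Fin b) (Fin b) ℂ) :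
    dsum A B * dsum A' B' = dsum (A * A') (B * B') := by
  unfold dsum
  rw [Matrix.reindex_apply, Matrix.reindex_apply, Matrix.reindex_apply,
    Matrix.submatrix_mul_equiv, Matrix.fromBlocks_multiply]
  simp

theorem dsum_one {a b : ℕ} :
    dsum (1 : Matrix (Fin a) (Fin a) ℂ) (1 : Matrix (Fin b) (Fin b) ℂ) = 1 := by
  unfold dsum
  rw [Matrix.fromBlocks_one, Matrix.reindex_apply, Matrix.submatrix_one_equiv]

theorem dsum_star {a b : ℕ} (A : Matrix (Fin a) (Fin a) ℂ) (B : Matrix (Fin b) (Fin b) ℂ) :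
    star (dsum A B) = dsum (star A) (star B) := by
  unfold dsum
  rw [Matrix.star_eq_conjTranspose, Matrix.reindex_apply, Matrix.conjTranspose_submatrix,
    Matrix.fromBlocks_conjTranspose, Matrix.reindex_apply]
  simp [Matrix.star_eq_conjTranspose]

theorem dsum_eq_one {a b : ℕ} {A : Matrix (Fin a) (Fin a) ℂ} {B : Matrix (Fin b) (Fin b) ℂ}
    (h : dsum A B = 1) : A = 1 ∧ B = 1 := by
  rw [← dsum_one (a := a) (b := b)] at h
  unfold dsum at h
  have h1 := (Matrix.reindex finSumFinEquiv finSumFinEquiv).injective h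
  rw [Matrix.fromBlocks_inj] at h1
  exact ⟨h1.1, h1.2.2.2⟩

theorem continuous_dsum {X : Type*} [TopologicalSpace X] {a b : ℕ}
    {f : X → Matrix (Fin a) (Fin a) ℂ} {g : X → Matrix (Fin b) (Fin b) ℂ}
    (hf : Continuous f) (hg : Continuous g) : Continuous fun x => dsum (f x) (g x) := by
  unfold dsum
  have h : Continuous fun x => Matrix.fromBlocks (f x) 0 0 (g x) :=
    Continuous.matrix_fromBlocks hf continuous_const continuous_const hg
  exact h.matrix_reindex _ _

/-- direct sum of two unitary representations -/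
theorem exists_sum {G : Type v} [Group G] [TopologicalSpace G] {a b : ℕ}
    (φ : G →* Matrix.unitaryGroup (Fin a) ℂ) (hφ : Continuous φ)
    (ψ : G →* Matrix.unitaryGroup (Fin b) ℂ) (hψ : Continuous ψ) :
    ∃ (N : ℕ) (θ : G →* Matrix.unitaryGroup (Fin N) ℂ), Continuous θ ∧
      ∀ g, θ g = 1 → φ g = 1 ∧ ψ g = 1 := by
  refine ⟨a + b,
    { toFun := fun g => ⟨dsum (φ g : Matrix _ _ ℂ) (ψ g : Matrix _ _ ℂ), ?_⟩
      map_one' := ?_
      map_mul' := ?_ }, ?_, ?_⟩
  · rw [Matrix.mem_unitaryGroup_iff, dsum_star, dsum_mul]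
    have h1 := Matrix.mem_unitaryGroup_iff.1 (φ g).2
    have h2 := Matrix.mem_unitaryGroup_iff.1 (ψ g).2
    rw [h1, h2, dsum_one]
  · apply Subtype.ext
    simp [dsum_one]
  · intro x y
    apply Subtype.ext
    simp [dsum_mul]
  · exact (continuous_dsum (continuous_subtype_val.comp hφ)
      (continuous_subtype_val.comp hψ)).subtype_mk _
  · intro g hg
    obtain ⟨h2, h3⟩ := dsum_eq_one (congrArg Subtype.val hg)
    exact ⟨Subtype.ext h2, Subtype.ext h3⟩

/-- a compact group without small subgroups is a closed subgroup of a unitary group -/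
theorem exists_closedEmbedding (hPW : PWStatement.{v}) (G : Type v) [Group G] [TopologicalSpace G]
    [IsTopologicalGroup G] [CompactSpace G] [T2Space G]
    (h : ∃ U ∈ 𝓝 (1 : G), ∀ H : Subgroup G, (H : Set G) ⊆ U → H = ⊥) :
    ∃ (N : ℕ) (φ : G →* Matrix.unitaryGroup (Fin N) ℂ), Topology.IsClosedEmbedding φ := by
  obtain ⟨U, hU, H⟩ := h
  have hC : IsCompact (interior U)ᶜ := (isOpen_interior.isClosed_compl).isCompact
  have key : ∃ (N : ℕ) (φ : G →* Matrix.unitaryGroup (Fin N) ℂ), Continuous φ ∧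
      ∀ x ∈ (interior U)ᶜ, φ x ≠ 1 := by
    refine hC.induction_on (p := fun s => ∃ (N : ℕ) (φ : G →* Matrix.unitaryGroup (Fin N) ℂ),
      Continuous φ ∧ ∀ x ∈ s, φ x ≠ 1) ?_ ?_ ?_ ?_
    · exact ⟨0, 1, continuous_const, fun x hx => hx.elim⟩
    · rintro s t hst ⟨N, φ, hφ, h⟩
      exact ⟨N, φ, hφ, fun x hx => h x (hst hx)⟩
    · rintro s t ⟨N, φ, hφ, h⟩ ⟨N', ψ, hψ, h'⟩
      obtain ⟨N'', θ, hθ, h''⟩ := exists_sum φ hφ ψ hψ
      refine ⟨N'', θ, hθ, fun x hx hx1 => ?_⟩
      rcases hx with hx | hx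
      · exact h x hx (h'' x hx1).1
      · exact h' x hx (h'' x hx1).2
    · intro x hx
      have hx1 : x ≠ 1 := by
        rintro rfl
        exact hx (mem_interior_iff_mem_nhds.2 hU)
      obtain ⟨N, φ, hφ, hne⟩ := hPW G x hx1
      refine ⟨{y | φ y ≠ 1}, ?_, N, φ, hφ, fun y hy => hy⟩
      apply mem_nhdsWithin_of_mem_nhds
      exact (isOpen_ne.preimage hφ).mem_nhds hne
  obtain ⟨N, φ, hφ, hne⟩ := key
  refine ⟨N, φ, hφ.isClosedEmbedding ?_⟩
  rw [← MonoidHom.ker_eq_bot_iff]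
  apply H
  intro x hx
  by_contra hxU
  exact hne x (fun hx' => hxU (interior_subset hx')) hx

end Vale.Agent.P228.H951
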