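import Vale.Agent.P228.H951.Unif

/-!
# P228: homomorphisms from `ℤ_[p]` with small displacement act trivially, uniformly in `p`
-/

namespace Vale.Agent.P228.H951

open Set Topology Metric Vale.Agent.P228.GRL

section Zp

variable {p : ℕ} [Fact p.Prime]
variable {n : ℕ} {M : Type*} [TopologicalSpace M] [AddAction ℤ_[p] M] [ContinuousVAdd ℤ_[p] M]

/-- a `ℤ_[p]`-action with small displacement on a ball of one chart is trivial near the centre. -/
theorem mem_interior_of_small {c : ℝ} (_hc : 0 < c) (hLN : LN p n c)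
    (e : OpenPartialHomeomorph M (EuclideanSpace ℝ (Fin n))) {x₁ : M} (hx₁ : x₁ ∈ e.source)
    {R : ℝ} (hR : 0 < R) (hRs : closedBall (e x₁) R ⊆ e.target)
    (hs : ∀ u : ℤ_[p], ∀ x ∈ closedBall (e x₁) R, u +ᵥ e.symm x ∈ e.source ∧
      dist (e (u +ᵥ e.symm x)) x < c * (R / 2)) :
    x₁ ∈ interior (fixG p M 0) := by
  have H := hLN.scaled
  have hct : e x₁ ∈ e.target := e.map_source hx₁
  have hk' : ∀ u : ℤ_[p], ∀ x ∈ closedBall (e x₁) R, ((p : ℤ_[p]) ^ 0 * u) +ᵥ e.symm x ∈ e.source ∧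
      dist (chartAct e 0 u x) x < c * (R / 2) := by
    intro u x hx
    simp only [chartAct, chartMap, pow_zero, one_mul]
    exact hs u x hx
  let B : Set M := e.symm '' ball (e x₁) R
  have hBR : ball (e x₁) R ⊆ e.target := ball_subset_closedBall.trans hRs
  have hBopen : IsOpen B := e.symm.isOpen_image_of_subset_source isOpen_ball hBR
  let Nn : Set M := saturate (p := p) 0 B
  have hNopen : IsOpen Nn := isOpen_saturate 0 hBopen
  have hNs : Nn ⊆ e.source := by
    apply saturate_subset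
    rintro u _ ⟨x, hx, rfl⟩
    exact (hk' u x (ball_subset_closedBall hx)).1
  have act : LocAct p (e '' Nn) (chartAct (p := p) e 0) :=
    locAct_chartAct e 0 hNs (fun u m hm => saturate_inv 0 B u hm)
  have hW : IsOpen (e '' Nn) := isOpen_chart_image e hNopen hNs
  have hballW : ball (e x₁) R ⊆ e '' Nn := by
    intro x hx
    exact ⟨e.symm x, subset_saturate 0 B ⟨x, hx, rfl⟩, e.right_inv (hBR hx)⟩
  have h1 : ∀ᶠ y in 𝓝 (e x₁), e.symm y ∈ fixG p M 0 := by
    filter_upwards [ball_mem_nhds (e x₁) (show 0 < R / 4 by positivity)] with y hy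
    have hsub : closedBall y (R / 2) ⊆ ball (e x₁) R := by
      apply closedBall_subset_ball'
      rw [mem_ball] at hy
      linarith
    refine mem_fixG_of_chartAct e (fun u => (hk' u y ?_).1) (fun u => ?_)
    · exact ball_subset_closedBall (hsub (mem_closedBall_self (by positivity)))
    · refine H _ _ hW act y (R / 2) (by positivity) (hsub.trans hballW) ?_ u
      intro u x hx
      rw [← dist_eq_norm]
      exact (hk' u x (ball_subset_closedBall (hsub hx))).2.le
  have h2 := mem_interior_fixG_of_chart e hct h1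
  rwa [e.left_inv hx₁] at h2

theorem localNewman (p n : ℕ) [Fact p.Prime] : GRL.LocalNewman p n := by
  obtain ⟨c, hc, H⟩ := exists_ln n
  exact ⟨c, hc, H p⟩

/-- such an action on a connected manifold is trivial. -/
theorem trivial_of_small {c : ℝ} (hc : 0 < c) (hLN : LN p n c) [T2Space M]
    [ChartedSpace (EuclideanSpace ℝ (Fin n)) M] [PreconnectedSpace M]
    (e : OpenPartialHomeomorph M (EuclideanSpace ℝ (Fin n))) {x₁ : M} (hx₁ : x₁ ∈ e.source)
    {R : ℝ} (hR : 0 < R) (hRs : closedBall (e x₁) R ⊆ e.target)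
    (hs : ∀ u : ℤ_[p], ∀ x ∈ closedBall (e x₁) R, u +ᵥ e.symm x ∈ e.source ∧
      dist (e (u +ᵥ e.symm x)) x < c * (R / 2)) (u : ℤ_[p]) (m : M) : u +ᵥ m = m := by
  have hk := mem_interior_of_small hc hLN e hx₁ hR hRs hs
  have hclopen : IsClopen (interior (fixG p M 0)) := by
    refine ⟨isClosed_of_closure_subset fun x hx => ?_, isOpen_interior⟩
    exact touch_closed (localNewman p n) (chartAt (EuclideanSpace ℝ (Fin n)) x)
      (mem_chart_source _ x) hx
  have huniv : interior (fixG p M 0) = univ := hclopen.eq_univ ⟨x₁, hk⟩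
  have h1 : m ∈ interior (fixG p M 0) := by rw [huniv]; trivial
  have h2 := interior_subset h1 u
  rwa [pow_zero, one_mul] at h2

end Zp

section G

variable {M : Type*} [TopologicalSpace M] [T2Space M] [PreconnectedSpace M]

  {G : Type*} [Group G] [TopologicalSpace G] [MulAction G M] [ContinuousSMul G M]

/-- **no small images of `ℤ_[p]`, uniformly in `p`** -/
theorem exists_nhds_trivial (n : ℕ) [ChartedSpace (EuclideanSpace ℝ (Fin n)) M] : ∃ U ∈ 𝓝 (1 : G),
    ∀ (p : ℕ) [Fact p.Prime] (φ : Multiplicative ℤ_[p] →* G), Continuous φ → (∀ u, φ u ∈ U) →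
      ∀ (u : Multiplicative ℤ_[p]) (m : M), φ u • m = m := by
  rcases isEmpty_or_nonempty M with hM | ⟨⟨x₀⟩⟩
  · exact ⟨univ, Filter.univ_mem, fun p _ φ _ _ u m => hM.elim m⟩
  obtain ⟨c, hc, H⟩ := exists_ln n
  set e := chartAt (EuclideanSpace ℝ (Fin n)) x₀ with he
  have hx₀ : x₀ ∈ e.source := mem_chart_source _ x₀
  have hct : e x₀ ∈ e.target := e.map_source hx₀
  obtain ⟨R, hR, hRs⟩ := nhds_basis_closedBall.mem_iff.1 (e.open_target.mem_nhds hct)
  let O : Set (G × EuclideanSpace ℝ (Fin n)) :=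
    {z | z.1 • e.symm z.2 ∈ e.source ∧ dist (e (z.1 • e.symm z.2)) z.2 < c * (R / 2)}
  have hO : ∀ x ∈ closedBall (e x₀) R, O ∈ 𝓝 ((1 : G), x) := by
    intro x hx
    have hxt := hRs hx
    have h0 : (1 : G) • e.symm x ∈ e.source := by rw [one_smul]; exact e.map_target hxt
    have h1 : ContinuousAt (fun z : G × EuclideanSpace ℝ (Fin n) => z.1 • e.symm z.2) (1, x) := by
      have h2 : ContinuousAt (fun z : G × EuclideanSpace ℝ (Fin n) => e.symm z.2) (1, x) :=
        (e.continuousAt_symm hxt).comp (f := fun z : G × EuclideanSpace ℝ (Fin n) => z.2)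
          (x := (1, x)) continuousAt_snd
      exact continuousAt_fst.smul h2
    have h3 : ContinuousAt (fun z : G × EuclideanSpace ℝ (Fin n) => e (z.1 • e.symm z.2)) (1, x) :=
      (e.continuousAt h0).comp
        (f := fun z : G × EuclideanSpace ℝ (Fin n) => z.1 • e.symm z.2) (x := (1, x)) h1
    refine Filter.inter_mem (h1.preimage_mem_nhds (e.open_source.mem_nhds h0)) ?_
    have h4 : ContinuousAt (fun z : G × EuclideanSpace ℝ (Fin n) =>
        dist (e (z.1 • e.symm z.2)) z.2) (1, x) := h3.dist continuousAt_snd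
    have h5 : dist (e ((1 : G) • e.symm x)) x < c * (R / 2) := by
      rw [one_smul, e.right_inv hxt, dist_self]; positivity
    exact h4.preimage_mem_nhds (Iio_mem_nhds h5)
  have hU : ∃ U ∈ 𝓝 (1 : G), U ×ˢ closedBall (e x₀) R ⊆ O := by
    have hK : IsCompact (closedBall (e x₀) R) := isCompact_closedBall _ _
    refine hK.induction_on (p := fun S => ∃ U ∈ 𝓝 (1 : G), U ×ˢ S ⊆ O) ?_ ?_ ?_ ?_
    · exact ⟨univ, Filter.univ_mem, by simp only [prod_empty, empty_subset]⟩
    · rintro s t hst ⟨U, hU, hUt⟩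
      exact ⟨U, hU, (prod_mono_right hst).trans hUt⟩
    · rintro s t ⟨U, hU, hUs⟩ ⟨U', hU', hUt⟩
      refine ⟨U ∩ U', Filter.inter_mem hU hU', ?_⟩
      rintro ⟨u, x⟩ ⟨hu, hx⟩
      rcases hx with hx | hx
      · exact hUs ⟨hu.1, hx⟩
      · exact hUt ⟨hu.2, hx⟩
    · intro x hx
      obtain ⟨U, hU, V, hV, hUV⟩ := mem_nhds_prod_iff.1 (hO x hx)
      exact ⟨V, mem_nhdsWithin_of_mem_nhds hV, U, hU, hUV⟩
  obtain ⟨U, hU, hUO⟩ := hU
  refine ⟨U, hU, fun p _ φ hφ hφU u m => ?_⟩
  let act : AddAction ℤ_[p] M :=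
    { vadd := fun u m => φ (Multiplicative.ofAdd u) • m
      zero_vadd := fun m => by
        change φ (Multiplicative.ofAdd 0) • m = m
        rw [ofAdd_zero, map_one, one_smul]
      add_vadd := fun u v m => by
        change φ (Multiplicative.ofAdd (u + v)) • m =
          φ (Multiplicative.ofAdd u) • φ (Multiplicative.ofAdd v) • m
        rw [ofAdd_add, map_mul, mul_smul] }
  have hact : ∀ (u : ℤ_[p]) (m : M), u +ᵥ m = φ (Multiplicative.ofAdd u) • m := fun u m => rfl
  have : ContinuousVAdd ℤ_[p] M := ⟨by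
    have h1 : Continuous fun z : ℤ_[p] × M => φ (Multiplicative.ofAdd z.1) :=
      hφ.comp (continuous_ofAdd.comp continuous_fst)
    exact h1.smul continuous_snd⟩
  have := trivial_of_small (p := p) hc (H p) e hx₀ hR hRs (fun u x hx => by
    have := hUO (show (φ (Multiplicative.ofAdd u), x) ∈ U ×ˢ closedBall (e x₀) R from
      ⟨hφU _, hx⟩)
    exact this) (Multiplicative.toAdd u) m
  exact this

end G

end Vale.Agent.P228.H951
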