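import Vale.Agent.P228.H951.Spec
import Vale.Agent.P228.H951.Loc

/-!
# P228: no small compact subgroups (assembly)
-/

namespace Vale.Agent.P228.H951

open Set Topology Metric

universe u v

/-- a group acting faithfully and continuously on a Hausdorff space is Hausdorff -/
theorem t2_of_faithful {M : Type u} [TopologicalSpace M] [T2Space M] {G : Type v} [Group G]
    [TopologicalSpace G] [MulAction G M] [ContinuousSMul G M] [FaithfulSMul G M] : T2Space G := by
  refine ⟨fun a b hab => ?_⟩
  obtain ⟨m, hm⟩ : ∃ m : M, a • m ≠ b • m := by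
    by_contra h
    push Not at h
    exact hab (eq_of_smul_eq_smul h)
  obtain ⟨U, V, hU, hV, ha, hb, hd⟩ := t2_separation hm
  have hc : Continuous fun g : G => g • m := continuous_id.smul continuous_const
  exact ⟨_, _, hU.preimage hc, hV.preimage hc, ha, hb, hd.preimage _⟩

/-- **no small compact subgroups** -/
theorem no_small_compact (hC : CptStatement.{v}) (n : ℕ) (M : Type u) [TopologicalSpace M]
    [T2Space M] [PreconnectedSpace M] [ChartedSpace (EuclideanSpace ℝ (Fin n)) M] (G : Type v)
    [Group G] [TopologicalSpace G] [IsTopologicalGroup G] [MulAction G M] [ContinuousSMul G M]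
    [FaithfulSMul G M] :
    ∃ U ∈ 𝓝 (1 : G), ∀ K : Subgroup G, IsCompact (K : Set G) → (K : Set G) ⊆ U → K = ⊥ := by
  have ht : T2Space G := t2_of_faithful (M := M)
  obtain ⟨U, hU, H⟩ := exists_nhds_trivial (M := M) (G := G) n
  refine ⟨U, hU, fun K hK hKU => ?_⟩
  by_contra hne
  have hnt : Nontrivial K := (Subgroup.nontrivial_iff_ne_bot K).2 hne
  have hcs : CompactSpace K := isCompact_iff_compactSpace.1 hK
  obtain ⟨p, hp, φ, hφ, u, hu⟩ := hC K
  apply hu
  have h1 := H p (K.subtype.comp φ) (continuous_subtype_val.comp hφ)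
    (fun u => hKU (φ u).2) u
  have h2 : (φ u : G) = 1 := by
    apply eq_of_smul_eq_smul (α := M)
    intro m
    rw [one_smul]
    exact h1 m
  exact Subtype.ext h2

/-- no small subgroups from no small compact subgroups, in a locally compact group -/
theorem nss_of_compact {G : Type v} [Group G] [TopologicalSpace G] [IsTopologicalGroup G]
    [T2Space G] [LocallyCompactSpace G]
    (h : ∃ U ∈ 𝓝 (1 : G), ∀ K : Subgroup G, IsCompact (K : Set G) → (K : Set G) ⊆ U → K = ⊥) :
    ∃ U ∈ 𝓝 (1 : G), ∀ H : Subgroup G, (H : Set G) ⊆ U → H = ⊥ := by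
  obtain ⟨U, hU, H⟩ := h
  obtain ⟨C, hC, hCU, hCc⟩ := local_compact_nhds hU
  refine ⟨C, hC, fun K hK => ?_⟩
  have h1 : (K.topologicalClosure : Set G) ⊆ C := by
    rw [Subgroup.topologicalClosure_coe]
    exact closure_minimal hK hCc.isClosed
  have h2 : IsCompact (K.topologicalClosure : Set G) :=
    hCc.of_isClosed_subset K.isClosed_topologicalClosure h1
  have h3 := H _ h2 (h1.trans hCU)
  rw [eq_bot_iff, ← h3]
  exact K.le_topologicalClosure

end Vale.Agent.P228.H951
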